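import Vale.Agent.P269.G1.Ser
import Vale.Agent.P269.H597.MainA

/-!
# [G2-D] all insertions, even dimension: definitions
-/

namespace Vale.Agent.P269.G2

open Finset.HasAntidiagonal (antidiagonal)
open Vale.Agent.P269.CI
open Vale.Agent.P269.G1 (toSer Sym)
open Vale.Agent.P269.H597 (coh)

/-- functions on a finite-dimensional part of the big phase space -/
abbrev RB (n : ℕ) := MvPowerSeries (Fin n) (PowerSeries ℂ)

/-- a finite family of insertions which contains all classes without descendants -/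
structure Fam (X : CompleteIntersection) (n : ℕ) where
  e : Fin n → Ins X
  i0 : Ix X → Fin n
  e_i0 : ∀ b, e (i0 b) = (b, 0)

variable {X : CompleteIntersection} {n : ℕ}

/-- the function with the given coefficients -/
noncomputable def sr (E : Fam X n) (A : ℕ → List (Ins X) → ℂ) : RB n :=
  toSer fun L => PowerSeries.mk fun d => A d (L.map E.e)

/-- symmetric on the lists of the family -/
def SymF (E : Fam X n) (A : ℕ → List (Ins X) → ℂ) : Prop :=
  ∀ d (L M : List (Fin n)), L.Perm M → A d (L.map E.e) = A d (M.map E.e)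

variable (E : Fam X n) {F : ℕ → ℕ → List (Ins X) → ℂ}

/-- constants -/
noncomputable def cb (n : ℕ) (c : ℂ) : RB n := MvPowerSeries.C (PowerSeries.C c)

/-- operators: matrices -/
abbrev OB (X : CompleteIntersection) (n : ℕ) : Type := Matrix (Ix X) (Ix X) (RB n)

/-- two-point functions -/
noncomputable def VB (F : ℕ → ℕ → List (Ins X) → ℂ) (a b : Ins X) : RB n := sr E (cor F 0 [a, b])

/-- `S_k`: the matrix entry `(c, b)` is the coefficient of `e_c` in `S_k e_b` -/
noncomputable def SB (F : ℕ → ℕ → List (Ins X) → ℂ) : ℕ → OB X n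
  | 0 => 1
  | k + 1 => Matrix.of fun c b => ∑ a : Ix X, pairingInv X a c • VB E F (b, k) (a, 0)

/-- the (big) quantum multiplication by `x` -/
noncomputable def CB (F : ℕ → ℕ → List (Ins X) → ℂ) : (Ix X → RB n) →ₗ[RB n] OB X n where
  toFun x := Matrix.of fun c b => ∑ j, x j * ∑ a : Ix X,
      pairingInv X a c • sr E (cor F 0 [(j, 0), (b, 0), (a, 0)])
  map_add' x y := by
    refine Matrix.ext fun c b => ?_
    change ∑ j, (x j + y j) * _ = ∑ j, x j * _ + ∑ j, y j * _
    rw [← Finset.sum_add_distrib]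
    exact Finset.sum_congr rfl fun j _ => by ring
  map_smul' r x := by
    refine Matrix.ext fun c b => ?_
    change ∑ j, (r * x j) * _ = r * ∑ j, x j * _
    rw [Finset.mul_sum]
    exact Finset.sum_congr rfl fun j _ => by ring

/-- `μ` -/
noncomputable def muB (X : CompleteIntersection) (n : ℕ) : OB X n :=
  Matrix.diagonal fun b => cb n (mu X b)

/-- the classical multiplication by `c_1` -/
noncomputable def RBcl (X : CompleteIntersection) (n : ℕ) : OB X n :=
  Matrix.of fun c b => cb n (c1 X b c)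

/-- `U` -/
noncomputable def UB (F : ℕ → ℕ → List (Ins X) → ℂ) : OB X n :=
  SB E F 1 + SB E F 1 * muB X n - muB X n * SB E F 1 + RBcl X n

/-- trace -/
noncomputable def strB (X : CompleteIntersection) (n : ℕ) : OB X n →ₗ[RB n] RB n where
  toFun a := Matrix.trace a
  map_add' a b := Matrix.trace_add a b
  map_smul' r a := Matrix.trace_smul r a

/-- the derivative of the genus-one potential in the directions of level zero -/
noncomputable def GB (F : ℕ → ℕ → List (Ins X) → ℂ) : (Ix X → RB n) →ₗ[RB n] RB n where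
  toFun x := ∑ j, x j * sr E (cor F 1 [(j, 0)])
  map_add' x y := by
    change ∑ j, (x j + y j) * _ = ∑ j, x j * _ + ∑ j, y j * _
    rw [← Finset.sum_add_distrib]
    exact Finset.sum_congr rfl fun j _ => by ring
  map_smul' r x := by
    change ∑ j, (r * x j) * _ = r * ∑ j, x j * _
    rw [Finset.mul_sum]
    exact Finset.sum_congr rfl fun j _ => by ring

/-- `w_{i,j} = S_{m_i - j} e_{a_i}` -/
noncomputable def wB (F : ℕ → ℕ → List (Ins X) → ℂ) (i : Fin n) (j : ℕ) : Ix X → RB n := fun c =>
  if j ≤ (E.e i).2 then SB E F ((E.e i).2 - j) c (E.e i).1 else 0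

/-- `g_j`: minus the coefficient of `z^j` of `S (∑ x_i z^{m_i} e_{a_i} - z e_0)` -/
noncomputable def gB (F : ℕ → ℕ → List (Ins X) → ℂ) (j : ℕ) : Ix X → RB n := fun c =>
  (if j ≤ 1 then SB E F (1 - j) c (one X) else 0) - ∑ i, MvPowerSeries.X i * wB E F i j c

/-- entrywise derivative -/
noncomputable def dB (i : Fin n) (a : OB X n) : OB X n :=
  a.map (MvPowerSeries.pderiv (PowerSeries ℂ) i)

/-- action on vectors -/
noncomputable def actB (X : CompleteIntersection) (n : ℕ) :
    OB X n →ₐ[RB n] Module.End (RB n) (Ix X → RB n) :=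
  (Matrix.toLinAlgEquiv' (R := RB n) (n := Ix X)).toAlgHom

/-- a constant vector -/
noncomputable def eB (X : CompleteIntersection) (n : ℕ) (b : Ix X) : Ix X → RB n :=
  Pi.single b 1

/-- `c + μ` on vectors -/
noncomputable def muc (X : CompleteIntersection) (n : ℕ) (c : ℂ) : OB X n :=
  Matrix.diagonal fun b => cb n (c + mu X b)

/-- the vector `-𝒜_0(l_0 τ)` -/
noncomputable def calE (F : ℕ → ℕ → List (Ins X) → ℂ) : Ix X → RB n :=
  actB X n (SB E F 1 * muc X n (3 / 2) + RBcl X n) (eB X n (one X)) -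
    ∑ i, (MvPowerSeries.X i : RB n) •
      (actB X n (SB E F (E.e i).2 * muc X n ((E.e i).2 + 1 / 2)) (eB X n (E.e i).1) +
      if (E.e i).2 = 0 then 0 else
        actB X n (SB E F ((E.e i).2 - 1) * RBcl X n) (eB X n (E.e i).1))

/-- the loop term -/
noncomputable def loopB (F : ℕ → ℕ → List (Ins X) → ℂ) (k : ℕ) : RB n :=
  sr E (fun d L => (coh X).loop (F 0 d) k L)

/-- `τ = ∑ x_i z^{m_i} e_{a_i} - z e_0` -/
noncomputable def tauB (E : Fam X n) (p : ℕ) : Ix X → RB n := fun b =>
  (∑ i, if E.e i = (b, p) then (MvPowerSeries.X i : RB n) else 0) -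
    if p = 1 ∧ b = one X then 1 else 0

/-- the polynomial part of `z c - (∂ F_0)(c)`, `N` a bound for the degree -/
noncomputable def cZB (F : ℕ → ℕ → List (Ins X) → ℂ) (N : ℕ) (c : ℕ → Ix X → RB n) :
    ℕ → Ix X → RB n
  | 0 => - ∑ m ∈ Finset.range N, actB X n (SB E F (m + 1)) (c m)
  | p + 1 => c p

/-- the polynomial part of `l_0 c`, `l_0 = z d/dz + 1/2 + μ + R/z` -/
noncomputable def cLB (c : ℕ → Ix X → RB n) : ℕ → Ix X → RB n := fun p =>
  actB X n (muc X n (p + 1 / 2)) (c p) + actB X n (RBcl X n) (c (p + 1))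

/-- the polynomial part of `l_k` applied to the point of the cone; `N` a bound for the degree -/
noncomputable def cB (F : ℕ → ℕ → List (Ins X) → ℂ) (N : ℕ) : ℕ → ℕ → Ix X → RB n
  | 0 => cLB (tauB E)
  | k + 1 => cLB (cZB E F N (cB F N k))

end Vale.Agent.P269.G2
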