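import Vale.Agent.P269.G2.BDefs
import Vale.Agent.P269.G1.BAbs
import Vale.Agent.P269.G2.H980.DescendLe

/-!
# [G2-D] all insertions, even dimension: leaves
-/

namespace Vale.Agent.P269.G2

open Finset.HasAntidiagonal (antidiagonal)
open Vale.Agent.P269.CI
open Vale.Agent.P269.G1 (toSer Sym Big)
open Vale.Agent.P269.H597 (coh)

variable {X : CompleteIntersection} {n : ℕ} (E : Fam X n) {F : ℕ → ℕ → List (Ins X) → ℂ}

/-- topological recursion in genus one for all classes -/
def Trr1 (F : ℕ → ℕ → List (Ins X) → ℂ) : Prop := ∀ d (a : Ix X) m L,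
  F 1 d ((a, m + 1) :: L) =
    (∑ α, ∑ β, pairingInv X α β * mulS (cor F 0 [(a, m), (α, 0)]) (cor F 1 [(β, 0)]) d L) +
    1 / 24 * ∑ α, ∑ β, pairingInv X α β * F 0 d ((a, m) :: (α, 0) :: (β, 0) :: L)

/-- genus-zero invariants with exactly one primitive insertion vanish -/
def Mono1 (F : ℕ → ℕ → List (Ins X) → ℂ) : Prop :=
  ∀ d (v : X.Prim) (m : ℕ) (L : List (Ins X)), (∀ x ∈ L, ∃ j, x.1 = Sum.inl j) →
    F 0 d ((Sum.inr v, m) :: L) = 0

/-- **[DB0]** -/
theorem symF_cor (hF : IsGW X F) (he : Even X.dim) (g : ℕ) (P : List (Ins X)) :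
    SymF E (cor F g P) := by
  sorry

/-- **[DB0]** -/
theorem pderiv_sr (A : ℕ → List (Ins X) → ℂ) (hA : SymF E A) (i : Fin n) :
    MvPowerSeries.pderiv (PowerSeries ℂ) i (sr E A) = sr E (fun d L => A d (E.e i :: L)) := by
  sorry

/-- **[DB0]** -/
theorem pderiv_sr_cor (hF : IsGW X F) (he : Even X.dim) (g : ℕ) (P : List (Ins X)) (i : Fin n) :
    MvPowerSeries.pderiv (PowerSeries ℂ) i (sr E (cor F g P)) =
      sr E (cor F g (E.e i :: P)) := by
  sorry

/-- **[DB0]** -/
theorem sr_mulS (he : Even X.dim) (A B : ℕ → List (Ins X) → ℂ) (hA : SymF E A) (hB : SymF E B) :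
    sr E (mulS A B) = sr E A * sr E B := by
  sorry

/-- **[DB0]** -/
theorem sr_inj (A B : ℕ → List (Ins X) → ℂ) (hA : SymF E A) (hB : SymF E B)
    (h : sr E A = sr E B) (d : ℕ) (L : List (Fin n)) :
    A d (L.map E.e) = B d (L.map E.e) := by
  sorry

/-- **[DB1]** topological recursion for two-point functions -/
theorem dB_SB (hF : IsGW X F) (he : Even X.dim) (i : Fin n) (k : ℕ) :
    dB i (SB E F (k + 1)) = CB E F (wB E F i 0) * SB E F k := by
  sorry

/-- **[DB1']** two-point functions depend only on the point of the small phase space -/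
theorem pderiv_VB (hF : IsGW X F) (he : Even X.dim) (i : Fin n) (a b : Ins X) :
    MvPowerSeries.pderiv (PowerSeries ℂ) i (VB E F a b) =
      ∑ c, wB E F i 0 c * MvPowerSeries.pderiv (PowerSeries ℂ) (E.i0 c) (VB E F a b) := by
  sorry

/-- **[DB2]** WDVV -/
theorem CB_comm (hF : IsGW X F) (he : Even X.dim) (x y : Ix X → RB n) :
    actB X n (CB E F x) y = actB X n (CB E F y) x := by
  sorry

/-- **[DB2]** -/
theorem CB_mul (hF : IsGW X F) (he : Even X.dim) (x y : Ix X → RB n) :
    CB E F (actB X n (CB E F x) y) = CB E F x * CB E F y := by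
  sorry

/-- **[DB3]** string equation, differentiated twice -/
theorem CB_g (hF : IsGW X F) (he : Even X.dim) : CB E F (gB E F 1) = 1 := by
  sorry

/-- **[DB3]** string equation, differentiated once -/
theorem g_zero (hF : IsGW X F) (he : Even X.dim) : gB E F 0 = 0 := by
  sorry

/-- **[DB4a]** grading and divisor equation -/
theorem SB_euler (hF : IsGW X F) (he : Even X.dim) (k : ℕ) : CB E F (calE E F) * SB E F k =
    ((k : ℚ) + 1) • SB E F (k + 1) + SB E F (k + 1) * muB X n - muB X n * SB E F (k + 1) +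
      SB E F k * RBcl X n := by
  sorry

/-- **[DB4b]** algebra from `SB_euler`, `g_zero`, `CB_g`, `CB_comm` -/
theorem CB_U (hF : IsGW X F) (he : Even X.dim) :
    CB E F (actB X n (UB E F) (gB E F 1)) = UB E F := by
  sorry

/-- **[DB5]** topological recursion in genus one -/
theorem cor_one_big (hF : IsGW X F) (he : Even X.dim) (h1 : Trr1 F) (i : Fin n) :
    sr E (cor F 1 [E.e i]) = GB E F (wB E F i 0) +
      (1 / 24 : ℚ) • strB X n (CB E F (wB E F i 1)) := by
  sorry

/-- **[DB5']** the same for an arbitrary level -/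
theorem cor_one_lev (hF : IsGW X F) (he : Even X.dim) (h1 : Trr1 F) (b : Ix X) (m : ℕ) :
    sr E (cor F 1 [(b, m)]) = GB E F (fun c => SB E F m c b) +
      if m = 0 then 0 else (1 / 24 : ℚ) • strB X n (CB E F fun c => SB E F (m - 1) c b) := by
  sorry

/-- **[DG]** -/
theorem bDO_add (i : Fin n) (a b : OB X n) : dB i (a + b) = dB i a + dB i b := by
  sorry

/-- **[DG]** -/
theorem bDO_mul (i : Fin n) (a b : OB X n) : dB i (a * b) = dB i a * b + a * dB i b := by
  sorry

/-- **[DG]** -/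
theorem bDO_smul (i : Fin n) (r : RB n) (a : OB X n) :
    dB i (r • a) = MvPowerSeries.pderiv (PowerSeries ℂ) i r • a + r • dB i a := by
  sorry

/-- **[DG]** -/
theorem bD_act (i : Fin n) (a : OB X n) (x : Ix X → RB n) (b : Ix X) :
    MvPowerSeries.pderiv (PowerSeries ℂ) i (actB X n a x b) = actB X n (dB i a) x b +
      actB X n a (fun c => MvPowerSeries.pderiv (PowerSeries ℂ) i (x c)) b := by
  sorry

/-- **[DG]** -/
theorem bstr_comm (a b : OB X n) : strB X n (a * b) = strB X n (b * a) := by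
  sorry

/-- **[DG]** -/
theorem bD_str (i : Fin n) (a : OB X n) :
    MvPowerSeries.pderiv (PowerSeries ℂ) i (strB X n a) = strB X n (dB i a) := by
  sorry

/-- **[DG]** -/
theorem bDO_mu (i : Fin n) : dB i (muB X n) = 0 := by
  sorry

/-- **[DG]** -/
theorem bDO_R (i : Fin n) : dB i (RBcl X n) = 0 := by
  sorry

/-- **[DG]** -/
theorem bw_zero (b : Ix X) : wB E F (E.i0 b) 0 = Pi.single b 1 := by
  sorry

/-- **[DG]** -/
theorem bw_succ (b : Ix X) (l : ℕ) : wB E F (E.i0 b) (l + 1) = 0 := by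
  sorry

/-- **[DH]** from `dB_SB` -/
theorem bD_w (hF : IsGW X F) (he : Even X.dim) (i j : Fin n) (l : ℕ) (b : Ix X) :
    MvPowerSeries.pderiv (PowerSeries ℂ) i (wB E F j l b) =
      actB X n (CB E F (wB E F i 0)) (wB E F j (l + 1)) b := by
  sorry

/-- **[DH]** from `bD_w` -/
theorem bD_g (hF : IsGW X F) (he : Even X.dim) (i : Fin n) (j : ℕ) (b : Ix X) :
    MvPowerSeries.pderiv (PowerSeries ℂ) i (gB E F (j + 1) b) =
      actB X n (CB E F (wB E F i 0)) (gB E F (j + 2)) b - wB E F i (j + 1) b := by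
  sorry

/-- **[DH]** from `dB_SB` -/
theorem bDO_U (hF : IsGW X F) (he : Even X.dim) (i : Fin n) : dB i (UB E F) =
    CB E F (wB E F i 0) + CB E F (wB E F i 0) * muB X n -
      muB X n * CB E F (wB E F i 0) := by
  sorry

/-- **[DH]** from `dB_SB` and `pderiv_comm` -/
theorem bC_symm (hF : IsGW X F) (he : Even X.dim) (i j : Fin n) :
    dB i (CB E F (wB E F j 0)) = dB j (CB E F (wB E F i 0)) := by
  sorry

/-- **[DH]** from `cor_one_big` -/
theorem bG_symm (hF : IsGW X F) (he : Even X.dim) (h1 : Trr1 F) (i j : Fin n) :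
    MvPowerSeries.pderiv (PowerSeries ℂ) i (GB E F (wB E F j 0) +
      (1 / 24 : ℚ) • strB X n (CB E F (wB E F j 1))) =
    MvPowerSeries.pderiv (PowerSeries ℂ) j (GB E F (wB E F i 0) +
      (1 / 24 : ℚ) • strB X n (CB E F (wB E F i 1))) := by
  sorry

/-- the data at a general point of the big phase space -/
noncomputable def big (hF : IsGW X F) (he : Even X.dim) (h1 : Trr1 F) :
    Big (Fin n) (Ix X) (RB n) (OB X n) where
  D i f := MvPowerSeries.pderiv (PowerSeries ℂ) i f
  D_add i f g := map_add _ f g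
  D_mul i f g := by
    rw [Derivation.leibniz, smul_eq_mul, smul_eq_mul]
    ring
  DO := dB
  DO_add := bDO_add
  DO_mul := bDO_mul
  DO_smul := bDO_smul
  act := actB X n
  D_act := bD_act
  str := strB X n
  str_comm := bstr_comm
  D_str := bD_str
  C := CB E F
  C_comm := CB_comm E hF he
  C_mul := CB_mul E hF he
  mu := muB X n
  DO_mu := bDO_mu
  U := UB E F
  w := wB E F
  g := gB E F
  C_g := CB_g E hF he
  C_U := CB_U E hF he
  D_g := bD_g E hF he
  D_w := bD_w E hF he
  DO_U := bDO_U E hF he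
  C_symm := bC_symm E hF he
  i0 := E.i0
  w_zero := bw_zero E
  w_succ := bw_succ E
  G := GB E F
  G_symm := bG_symm E hF he h1

/-! ### the vectors `l_k τ` -/

/-- **[DC1]** `cB` is `cs` of `H597.State` restricted to the family; `N` large -/
theorem vir_act (hF : IsGW X F) (he : Even X.dim) (k N : ℕ)
    (hN : ∀ i, (E.e i).2 + k + 2 ≤ N) (hN2 : k + 3 ≤ N) :
    sr E (fun d L => virasoro X F (k + 1) 1 d L) =
      (∑ p ∈ Finset.range N, ∑ b, cB E F N k p b * sr E (cor F 1 [(b, p)])) +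
      cb n (1 / 2) * loopB E F k + (if k = 0 then cb n (coh X).kap else 0) := by
  sorry

/-- **[DC2]** -/
theorem cB_high (k N p : ℕ) (hN : ∀ i, (E.e i).2 + k + 2 ≤ N) (hN2 : k + 3 ≤ N)
    (hp : N ≤ p + 1) : cB E F N k p = 0 := by
  sorry

/-- **[DC2]** `𝒜_0` -/
theorem cB_zero (hF : IsGW X F) (he : Even X.dim) (k N : ℕ)
    (hN : ∀ i, (E.e i).2 + k + 2 ≤ N) (hN2 : k + 3 ≤ N) :
    ∑ p ∈ Finset.range N, actB X n (SB E F p) (cB E F N k p) =
      - actB X n (UB E F ^ (k + 1)) (gB E F 1) := by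
  sorry

/-- **[DC2]** `𝒜_1` -/
theorem cB_one (hF : IsGW X F) (he : Even X.dim) (k N : ℕ)
    (hN : ∀ i, (E.e i).2 + k + 2 ≤ N) (hN2 : k + 3 ≤ N) :
    ∑ p ∈ Finset.range N, actB X n (SB E F p) (cB E F N k (p + 1)) =
      - ((∑ e ∈ antidiagonal (k + 1), if e.1 = 0 then 0 else
        actB X n (UB E F ^ (e.1 - 1) * muc X n (3 / 2) * UB E F ^ e.2) (gB E F 1)) +
        actB X n (UB E F ^ (k + 1)) (gB E F 2)) := by
  sorry

/-- **[DC]** the genus-one Virasoro coefficients at a general point; from `vir_act`,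
`cor_one_lev`, `cB_zero`, `cB_one` -/
theorem vir_big (hF : IsGW X F) (he : Even X.dim) (h1 : Trr1 F) (k : ℕ) :
    sr E (fun d L => virasoro X F (k + 1) 1 d L) = (big E hF he h1).zlin (k + 1) +
      cb n (1 / 2) * loopB E F k + (if k = 0 then cb n (coh X).kap else 0) := by
  sorry

/-- **[DB6]** -/
theorem symF_vir (hF : IsGW X F) (he : Even X.dim) (k : ℕ) :
    SymF E (fun d L => virasoro X F (k + 1) 1 d L) := by
  sorry

/-- **[DF]** from `vir_big`, `Big.reduce`, `pderiv_VB`, `descend_le` (H980/DescendLe): the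
constraints with at most `N0` primitive insertions -/
theorem vir_descend (hF : IsGW X F) (he : Even X.dim) (h1 : Trr1 F) (hm : Mono1 F) (k N0 : ℕ)
    (h : ∀ d (L : List (Ix X)), (L.countP fun a => a.isRight) ≤ N0 →
      virasoro X F (k + 1) 1 d (L.map fun a => (a, 0)) = 0)
    (d : ℕ) (L : List (Ins X)) (hL : (L.countP fun x => x.1.isRight) ≤ N0) :
    virasoro X F (k + 1) 1 d L = 0 := by
  sorry

end Vale.Agent.P269.G2
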