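import Vale.Agent.P269.G2.XSpec
import Vale.Agent.P269.G2.H521.Getzler
import Vale.Agent.P269.G2.H984.SmallLe

/-!
# Cubic hypersurfaces of even dimension: definitions and leaves
-/

namespace Vale.Agent.P269.CI

variable {X : CompleteIntersection}

/-- Known genus-zero numbers of a cubic hypersurface: degree one with two or four primitive
insertions, and the contraction of two primitive insertions with the pairing, which is
invariant under monodromy. -/
structure IsCubic (F : ℕ → ℕ → List (Ins X) → ℂ) : Prop where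
  two : ∀ (u v : X.Prim) (i j : Fin (X.dim + 1)), 1 ≤ (i : ℕ) → 1 ≤ (j : ℕ) →
    (i : ℕ) + j = X.dim →
    F 0 1 [(Sum.inr u, 0), (Sum.inr v, 0), (Sum.inl i, 0), (Sum.inl j, 0)] = -6 * X.form u v
  four : ∀ u v w z : X.Prim,
    F 0 1 [(Sum.inr u, 0), (Sum.inr v, 0), (Sum.inr w, 0), (Sum.inr z, 0)] =
      X.form u v * X.form w z + X.form u w * X.form v z + X.form u z * X.form v w
  schur : ∃ Λ : ℕ → List (Ins X) → ℂ, ∀ d (u v : X.Prim) L, (∀ x ∈ L, IsAmb X x) →
    ∑ w, ∑ z, pairingInv X (Sum.inr w) (Sum.inr z) *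
      F 0 d ((Sum.inr u, 0) :: (Sum.inr v, 0) :: (Sum.inr w, 0) :: (Sum.inr z, 0) :: L) =
      X.form u v * Λ d L

end Vale.Agent.P269.CI

namespace Vale.Agent.P269.G2

open Finset.HasAntidiagonal (antidiagonal)
open Vale.Agent.P269.CI
open Vale.Agent.P269.G1 (RR ser cst lamc Eu lam AA cq)
open Vale.Agent.P269.G2.H333 (ev0)
open Vale.Agent.P269.G2.H984 (RF rhoc dP aM)

variable {X : CompleteIntersection} {F : ℕ → ℕ → List (Ins X) → ℂ}

/-- the quantum Euler class -/
noncomputable def cas (hF : IsGW X F) (he : Even X.dim) : AM hF he :=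
  ∑ a : Ix X, ∑ b : Ix X, cb (nx X) (pairingInv X a b) •
    (H521.be hF he a * H521.be hF he b)

/-- the value at the origin -/
noncomputable def og (f : RR X) : PowerSeries ℂ := MvPowerSeries.constantCoeff f

/-- the number of primitive classes -/
noncomputable def np (X : CompleteIntersection) : ℂ := (Fintype.card X.Prim : ℂ)

/-- **[J1]** from `H861.J1` -/
theorem cas_de_two (hF : IsGW X F) (he : Even X.dim) (h1 : IsGenusOneFull F) :
    (frob hF he).der (cas hF he) ((frob hF he).de 2) = 0 := by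
  sorry

/-- **[J3a]** mono1, mono3 -/
theorem ev0_cas_inr (hF : IsGW X F) (he : Even X.dim) (h1 : IsGenusOneFull F) (b : X.Prim) :
    ev0 (phi X (cas hF he (Sum.inr b))) = 0 := by
  sorry

/-- **[J3b]** mono2, schur -/
theorem ev0_pd_cas (hF : IsGW X F) (he : Even X.dim) (h1 : IsGenusOneFull F) (hX : 4 ≤ X.dim)
    (hd : X.degs = [3]) (hc : IsCubic F) : ∃ ψ : RR X,
    (∀ v b, ev0 (MvPowerSeries.pderiv (PowerSeries ℂ) (Sum.inr v)
      (phi X (cas hF he (Sum.inr b)))) = if v = b then ψ else 0) ∧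
    og ψ = PowerSeries.C (np X + 4 - 2 * (X.dim : ℂ)) * PowerSeries.X := by
  sorry

/-- **[J2a]** the coefficient of `h^r` in the powers of the Euler field at the origin -/
theorem og_Eu_last (hF : IsGW X F) (h1 : IsGenusOne F) (hX : 4 ≤ X.dim) (hd : X.degs = [3])
    (k : ℕ) (hk : k ≤ X.dim) : og ((Eu hF h1 ^ k : AA hF h1) (Fin.last X.dim)) =
      if k = X.dim then PowerSeries.C (((X.dim : ℂ) - 1) ^ X.dim) else 0 := by
  sorry

/-- **[J2b]** `E ^ (r + 1) = 27 ν ^ (r - 1) q E ^ 2` at the origin -/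
theorem og_Eu_rel (hF : IsGW X F) (h1 : IsGenusOne F) (hX : 4 ≤ X.dim) (hd : X.degs = [3])
    (k : ℕ) (j : Fin (X.dim + 1)) : og ((Eu hF h1 ^ (k + X.dim + 1) : AA hF h1) j) =
      PowerSeries.C (27 * ((X.dim : ℂ) - 1) ^ (X.dim - 1)) * PowerSeries.X *
        og ((Eu hF h1 ^ (k + 2) : AA hF h1) j) := by
  sorry

/-- **[J2c]** the trace of the multiplication by `E ^ ν` at the origin, `ν = r - 1` -/
theorem og_trace (hF : IsGW X F) (he : Even X.dim) (h1 : IsGenusOne F) (hX : 4 ≤ X.dim)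
    (hd : X.degs = [3]) :
    og (ev0 (phi X (Matrix.trace (QA.mat (consts hF he) (EM hF he ^ (X.dim - 1)))))) =
      PowerSeries.C (27 * ((X.dim : ℂ) - 1) ^ X.dim) * PowerSeries.X := by
  sorry

/-- **[J2d]** `η(cas, z) = tr (z *)` at the origin; `z = 1` and `z = E ^ ν` -/
theorem og_cas (hF : IsGW X F) (he : Even X.dim) (h1 : IsGenusOneFull F) (hX : 4 ≤ X.dim)
    (hd : X.degs = [3]) : ∃ x : Fin (X.dim + 1) → PowerSeries ℂ,
    (∀ j : Fin (X.dim + 1), og (ev0 (phi X (cas hF he (Sum.inl j)))) =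
      ∑ k : Fin (X.dim + 1), x k * og ((Eu hF h1.toOne ^ (k : ℕ) : AA hF h1.toOne) j)) ∧
    x 1 = PowerSeries.C (-9 * (np X + 2) / ((X.dim : ℂ) - 1)) * PowerSeries.X ∧
    x (Fin.last X.dim) =
      PowerSeries.C ((np X + X.dim + 1) / (3 * ((X.dim : ℂ) - 1) ^ X.dim)) := by
  sorry

/-- **[J4a]** -/
theorem og_rho (hF : IsGW X F) (h1 : IsGenusOne F) (hX : 4 ≤ X.dim) (hd : X.degs = [3])
    (hc : IsCubic F) (k : ℕ) (hk : k ≤ X.dim) (v : X.Prim) : og (rhoc hF h1 k v) =
      if k = 0 then 0 else if k = 1 then PowerSeries.C (1 - (X.hodgeP v : ℂ)) else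
      if k = X.dim then PowerSeries.C (-6 * ((X.dim : ℂ) - 1) ^ X.dim) * PowerSeries.X
      else 0 := by
  sorry

/-- **[J4b]** the difference of the two gradings -/
theorem vir_types (hF : IsGW X F) (p d : ℕ) (w : List X.Prim)
    (h : 2 * (w.map X.hodgeP).sum ≠ w.length * X.dim) :
    virasoro X F (p + 1) 1 d (w.map fun v => (Sum.inr v, 0)) = 0 := by
  sorry

/-- **[J5]** the relation at the origin: `dl_field_ev0` for `cas` and for the powers of `E` -/
theorem cubic_origin (hF : IsGW X F) (he : Even X.dim) (h1 : IsGenusOneFull F)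
    (hX : 4 ≤ X.dim) (hd : X.degs = [3]) (hc : IsCubic F) (w : List X.Prim) (hw : w ≠ [])
    (h : ∀ w' : List X.Prim, w'.length < w.length → ∀ n,
      ev0 (dP w' (phi X (aM hF he n))) = 0) :
    MvPowerSeries.constantCoeff (dP w (phi X (aM hF he 1))) = 0 := by
  sorry

/-- **[J6]** all genus-one constraints, arbitrary insertions -/
theorem virasoro_cubic (hF : IsGW X F) (he : Even X.dim) (h1 : IsGenusOneFull F)
    (hX : 4 ≤ X.dim) (hd : X.degs = [3]) (hc : IsCubic F)
    (h0 : ∀ k d (L : List (Fin (X.dim + 1))), virasoro X F (k + 1) 1 d (L.map (hpow X)) = 0)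
    (K d : ℕ) (L : List (Ins X)) : virasoro X F K 1 d L = 0 := by
  sorry

end Vale.Agent.P269.G2
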