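import Vale.Agent.P269.G1.Defs

/-!
# Genus-one axioms for complete intersections of even dimension, arbitrary insertions
-/

namespace Vale.Agent.P269.CI

open Finset.HasAntidiagonal (antidiagonal)

variable {X : CompleteIntersection}

/-- One ordered term of Getzler's relation in genus one, for arbitrary classes (no signs: to be
used when there are no classes of odd degree). -/
noncomputable def getzlerTermFull (F : ℕ → ℕ → List (Ins X) → ℂ) (v : Fin 4 → Ix X)
    (d : ℕ) (L : List (Ins X)) : ℂ :=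
  ∑ α : Ix X, ∑ β : Ix X, ∑ γ : Ix X, ∑ δ : Ix X, pairingInv X α β * pairingInv X γ δ *
    (3 * mulS (mulS (cor F 0 [(v 0, 0), (v 1, 0), (α, 0)])
          (cor F 0 [(v 2, 0), (v 3, 0), (γ, 0)])) (cor F 1 [(β, 0), (δ, 0)]) d L
      - 4 * mulS (mulS (cor F 0 [(v 0, 0), (v 1, 0), (α, 0)])
          (cor F 0 [(β, 0), (v 2, 0), (γ, 0)])) (cor F 1 [(δ, 0), (v 3, 0)]) d L
      - mulS (mulS (cor F 0 [(v 0, 0), (v 1, 0), (α, 0)])
          (cor F 0 [(β, 0), (v 2, 0), (v 3, 0), (γ, 0)])) (cor F 1 [(δ, 0)]) d L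
      + 2 * mulS (mulS (cor F 0 [(v 0, 0), (v 1, 0), (v 2, 0), (α, 0)])
          (cor F 0 [(β, 0), (v 3, 0), (γ, 0)])) (cor F 1 [(δ, 0)]) d L
      + 1 / 6 * mulS (cor F 0 [(v 0, 0), (v 1, 0), (v 2, 0), (α, 0)])
          (cor F 0 [(β, 0), (v 3, 0), (γ, 0), (δ, 0)]) d L
      + 1 / 24 * mulS (cor F 0 [(v 0, 0), (v 1, 0), (v 2, 0), (v 3, 0), (α, 0)])
          (cor F 0 [(β, 0), (γ, 0), (δ, 0)]) d L
      - 1 / 4 * mulS (cor F 0 [(v 0, 0), (v 1, 0), (α, 0), (γ, 0)])
          (cor F 0 [(δ, 0), (β, 0), (v 2, 0), (v 3, 0)]) d L)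

/-- The axioms used in genus one for even dimension and arbitrary insertions: topological
recursion, Getzler's relation, invariance under monodromy (for excess at least three the
monodromy group is infinite, and its Zariski closure contains `-1` on the primitive part) and
the small quantum ring (index at least two). -/
structure IsGenusOneFull (F : ℕ → ℕ → List (Ins X) → ℂ) : Prop where
  trr1 : ∀ d (a : Ix X) m L,
    F 1 d ((a, m + 1) :: L) =
      (∑ α, ∑ β, pairingInv X α β * mulS (cor F 0 [(a, m), (α, 0)])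
        (cor F 1 [(β, 0)]) d L) +
      1 / 24 * ∑ α, ∑ β, pairingInv X α β * F 0 d ((a, m) :: (α, 0) :: (β, 0) :: L)
  getzler : ∀ (v : Fin 4 → Ix X) d (L : List (Ix X)),
    ∑ σ : Equiv.Perm (Fin 4), getzlerTermFull F (v ∘ σ) d (L.map fun a => (a, 0)) = 0
  mono1 : ∀ g d (v : X.Prim) m L, (∀ x ∈ L, IsAmb X x) → F g d ((Sum.inr v, m) :: L) = 0
  mono2 : ∃ Λ : ℕ → ℕ → ℕ → List (Ins X) → ℂ, ∀ d (v w : X.Prim) m n L,
    (∀ x ∈ L, IsAmb X x) →
      F 0 d ((Sum.inr v, m) :: (Sum.inr w, n) :: L) = X.form v w * Λ m n d L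
  mono3 : ∀ d (u v w : X.Prim) L, (∀ x ∈ L, IsAmb X x) →
    F 0 d ((Sum.inr u, 0) :: (Sum.inr v, 0) :: (Sum.inr w, 0) :: L) = 0
  mono4 : 3 ≤ excess X → ∀ g d (L : List (Ins X)),
    (L.filter fun x => x.1.isRight).length % 2 = 1 → F g d L = 0
  quantum : 2 ≤ index X → ∀ j, ((qmul F) ^ (X.dim + 1)) 0 j =
    PowerSeries.C ((X.degs.map fun d => (d : ℂ) ^ d).prod) * PowerSeries.X *
      ((qmul F) ^ excess X) 0 j

/-- the axioms for ambient insertions are special cases -/
theorem IsGenusOneFull.toOne {F : ℕ → ℕ → List (Ins X) → ℂ} (h : IsGenusOneFull F) :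
    IsGenusOne F where
  trr1 d j m L _ := h.trr1 d (Sum.inl j) m L
  getzler v d L := by
    have h1 := h.getzler (fun i => Sum.inl (v i)) d (L.map Sum.inl)
    have h2 : (L.map Sum.inl).map (fun a : Ix X => ((a, 0) : Ins X)) = L.map (hpow X) := by
      rw [List.map_map]
      rfl
    rw [h2] at h1
    exact h1
  mono1 := h.mono1
  mono2 := h.mono2
  mono3 := h.mono3
  quantum := h.quantum

end Vale.Agent.P269.CI
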