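import Mathlib

/-!
# Algebras from structure constants, general finite index type
-/

namespace Vale.Agent.P269.G2

/-- structure constants of a commutative associative algebra with unit `e_o` -/
structure Consts (β : Type*) [Fintype β] [DecidableEq β] (o : β) (R : Type*) [CommRing R] where
  c : β → β → β → R
  comm : ∀ i j k, c i j k = c j i k
  assoc : ∀ i j l m, ∑ k, c i j k * c k l m = ∑ k, c j l k * c i k m
  unit : ∀ j k, c o j k = if j = k then 1 else 0

variable {β : Type*} [Fintype β] [DecidableEq β] {o : β} {R : Type*} [CommRing R]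

/-- the algebra with the given structure constants -/
def QA (_S : Consts β o R) : Type _ := β → R

variable (S : Consts β o R)

instance : AddCommGroup (QA S) := inferInstanceAs (AddCommGroup (β → R))
instance : Module R (QA S) := inferInstanceAs (Module R (β → R))

noncomputable instance : Mul (QA S) :=
  ⟨fun x y => fun k => ∑ i, ∑ j, x i * y j * S.c i j k⟩

instance : One (QA S) := ⟨fun k => if k = o then 1 else 0⟩

theorem QA.mul_def (x y : QA S) (k : β) :
    (x * y : QA S) k = ∑ i, ∑ j, x i * y j * S.c i j k := rfl

theorem QA.one_def (k : β) : (1 : QA S) k = if k = o then 1 else 0 := rfl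

theorem QA.add_apply (x y : QA S) (k : β) : (x + y : QA S) k = x k + y k := rfl

theorem QA.smul_apply (r : R) (x : QA S) (k : β) : (r • x : QA S) k = r * x k := rfl

theorem QA.mul_comm' (x y : QA S) : x * y = y * x := by
  funext k
  rw [QA.mul_def, QA.mul_def, Finset.sum_comm]
  refine Finset.sum_congr rfl fun i _ => Finset.sum_congr rfl fun j _ => ?_
  rw [S.comm j i k]; ring

theorem QA.mul_assoc' (x y z : QA S) : x * y * z = x * (y * z) := by
  funext m
  have h1 : (x * y * z : QA S) m =
      ∑ i, ∑ j, ∑ l, x i * y j * z l * ∑ k, S.c i j k * S.c k l m := by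
    rw [QA.mul_def]
    simp only [QA.mul_def, Finset.sum_mul, Finset.mul_sum]
    rw [Finset.sum_comm]
    conv_lhs => enter [2, l]; rw [Finset.sum_comm]
    rw [Finset.sum_comm]
    refine Finset.sum_congr rfl fun i _ => ?_
    conv_lhs => enter [2, l]; rw [Finset.sum_comm]
    rw [Finset.sum_comm]
    refine Finset.sum_congr rfl fun j _ => Finset.sum_congr rfl fun l _ =>
      Finset.sum_congr rfl fun k _ => ?_
    ring
  have h2 : (x * (y * z) : QA S) m =
      ∑ i, ∑ j, ∑ l, x i * y j * z l * ∑ k, S.c j l k * S.c i k m := by
    rw [QA.mul_def]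
    simp only [QA.mul_def, Finset.sum_mul, Finset.mul_sum]
    refine Finset.sum_congr rfl fun i _ => ?_
    rw [Finset.sum_comm]
    refine Finset.sum_congr rfl fun j _ => ?_
    rw [Finset.sum_comm]
    refine Finset.sum_congr rfl fun l _ => Finset.sum_congr rfl fun k _ => ?_
    ring
  rw [h1, h2]
  refine Finset.sum_congr rfl fun i _ => Finset.sum_congr rfl fun j _ =>
    Finset.sum_congr rfl fun l _ => ?_
  rw [S.assoc i j l m]

theorem QA.one_mul' (x : QA S) : 1 * x = x := by
  funext k
  rw [QA.mul_def, Finset.sum_eq_single o]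
  · simp only [QA.one_def, if_true, one_mul, S.unit]
    rw [Finset.sum_eq_single k]
    · simp
    · intro b _ hb
      simp [hb]
    · simp
  · intro i _ hi
    simp [QA.one_def, hi]
  · simp

theorem QA.left_distrib' (x y z : QA S) : x * (y + z) = x * y + x * z := by
  funext k
  simp only [QA.mul_def, QA.add_apply, mul_add, add_mul, Finset.sum_add_distrib]

theorem QA.smul_mul' (r : R) (x y : QA S) : (r • x) * y = r • (x * y) := by
  funext k
  simp only [QA.mul_def, QA.smul_apply, Finset.mul_sum]
  refine Finset.sum_congr rfl fun i _ => Finset.sum_congr rfl fun j _ => ?_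
  ring

noncomputable instance : CommRing (QA S) :=
  { (inferInstance : AddCommGroup (QA S)) with
    mul := (· * ·)
    one := 1
    mul_comm := QA.mul_comm' S
    mul_assoc := QA.mul_assoc' S
    one_mul := QA.one_mul' S
    mul_one := fun x => by rw [QA.mul_comm' S, QA.one_mul' S]
    left_distrib := QA.left_distrib' S
    right_distrib := fun x y z => by
      rw [QA.mul_comm' S, QA.left_distrib' S, QA.mul_comm' S z x, QA.mul_comm' S z y]
    zero_mul := fun x => by
      funext k
      rw [QA.mul_def]
      refine Finset.sum_eq_zero fun i _ => Finset.sum_eq_zero fun j _ => ?_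
      change (0 : R) * x j * S.c i j k = 0
      ring
    mul_zero := fun x => by
      funext k
      rw [QA.mul_def]
      refine Finset.sum_eq_zero fun i _ => Finset.sum_eq_zero fun j _ => ?_
      change x i * (0 : R) * S.c i j k = 0
      ring }

noncomputable instance : Algebra R (QA S) :=
  Algebra.ofModule (QA.smul_mul' S) (fun r x y => by
    rw [mul_comm, QA.smul_mul' S, mul_comm])

/-- the basis `e_i` -/
noncomputable def QA.bas : Module.Basis β R (QA S) := Pi.basisFun R β

theorem QA.bas_apply (i k : β) : (QA.bas S i : QA S) k = if k = i then 1 else 0 := by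
  change (Pi.basisFun R β i) k = _
  simp [Pi.single_apply]

theorem QA.bas_mul (i j : β) :
    (QA.bas S i * QA.bas S j : QA S) = ∑ k, S.c i j k • QA.bas S k := by
  funext m
  rw [QA.mul_def, Finset.sum_eq_single i, Finset.sum_eq_single j]
  · have h : (∑ k, S.c i j k • QA.bas S k : QA S) m = ∑ k, S.c i j k * QA.bas S k m := by
      have := Finset.sum_apply (M := fun _ : β => R) m Finset.univ
        (fun k => (S.c i j k • QA.bas S k : QA S))
      exact this
    rw [h]
    simp [QA.bas_apply]
  · intro b _ hb
    simp [QA.bas_apply, hb]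
  · simp
  · intro b _ hb
    refine Finset.sum_eq_zero fun j' _ => ?_
    simp [QA.bas_apply, hb]
  · simp

/-- multiplication as matrices: the entry `(c, b)` is the coefficient of `e_c` in `x * e_b` -/
noncomputable def QA.mat : QA S →ₐ[R] Matrix β β R where
  toFun x := Matrix.of fun c b => ∑ j, x j * S.c j b c
  map_one' := by
    refine Matrix.ext fun c b => ?_
    rw [Matrix.of_apply, Finset.sum_eq_single o, S.unit, QA.one_def, if_pos rfl, one_mul,
      Matrix.one_apply]
    · by_cases h : b = c
      · rw [if_pos h, if_pos h.symm]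
      · rw [if_neg h, if_neg (Ne.symm h)]
    · intro i _ hi
      rw [QA.one_def, if_neg hi, zero_mul]
    · simp
  map_mul' x y := by
    refine Matrix.ext fun c b => ?_
    rw [Matrix.mul_apply]
    simp only [Matrix.of_apply, QA.mul_def, Finset.sum_mul, Finset.mul_sum]
    have e1 : ∑ k, ∑ i, ∑ j, x i * y j * S.c i j k * S.c k b c =
        ∑ i, ∑ j, x i * y j * ∑ k, S.c i j k * S.c k b c := by
      rw [Finset.sum_comm]
      refine Finset.sum_congr rfl fun i _ => ?_
      rw [Finset.sum_comm]
      refine Finset.sum_congr rfl fun j _ => ?_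
      rw [Finset.mul_sum]
      exact Finset.sum_congr rfl fun k _ => by ring
    rw [e1]
    simp only [S.assoc, Finset.mul_sum]
    have e2 : ∑ i, ∑ j, ∑ k, x i * y j * (S.c j b k * S.c i k c) =
        ∑ k, ∑ j, ∑ i, x i * S.c i k c * (y j * S.c j b k) := by
      conv_lhs => enter [2, i]; rw [Finset.sum_comm]
      rw [Finset.sum_comm]
      refine Finset.sum_congr rfl fun k _ => ?_
      rw [Finset.sum_comm]
      refine Finset.sum_congr rfl fun j _ => Finset.sum_congr rfl fun i _ => ?_
      ring
    rw [e2]
  map_zero' := by
    refine Matrix.ext fun c b => Finset.sum_eq_zero fun j _ => ?_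
    change (0 : R) * _ = 0
    ring
  map_add' x y := by
    refine Matrix.ext fun c b => ?_
    change ∑ j, (x j + y j) * _ = ∑ j, x j * _ + ∑ j, y j * _
    rw [← Finset.sum_add_distrib]
    exact Finset.sum_congr rfl fun j _ => by ring
  commutes' r := by
    refine Matrix.ext fun c b => ?_
    have h : (algebraMap R (QA S) r) = r • (1 : QA S) := by
      rw [Algebra.algebraMap_eq_smul_one]
    rw [h, Matrix.of_apply, Finset.sum_eq_single o, S.unit, QA.smul_apply, QA.one_def,
      if_pos rfl, mul_one, Matrix.algebraMap_matrix_apply]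
    · by_cases h : b = c
      · rw [if_pos h, if_pos h.symm]
        simp
      · rw [if_neg h, if_neg (Ne.symm h), mul_zero]
    · intro i _ hi
      rw [QA.smul_apply, QA.one_def, if_neg hi, mul_zero, zero_mul]
    · simp

theorem QA.mat_apply (x : QA S) (c b : β) : QA.mat S x c b = ∑ j, x j * S.c j b c := rfl

end Vale.Agent.P269.G2
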