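import Vale.Agent.P269.G2.BSpec
import Vale.Agent.P269.G2.Defs
import Vale.Agent.P269.G2.QA
import Vale.Agent.P269.G1.ZAbs
import Vale.Agent.P269.G1.Alg
import Vale.Agent.P269.G1.Poly

/-!
# The full small phase space in even dimension
-/

namespace Vale.Agent.P269.G2

open Finset.HasAntidiagonal (antidiagonal)
open Vale.Agent.P269.CI
open Vale.Agent.P269.G1 (toSer kk DD aK Big Frob)
open Vale.Agent.P269.H597 (coh)

/-- the number of classes -/
abbrev nx (X : CompleteIntersection) : ℕ := Fintype.card (Ix X)

/-- functions on the small phase space -/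
abbrev RM (X : CompleteIntersection) := RB (nx X)

/-- the family of all classes without descendants -/
noncomputable def E0 (X : CompleteIntersection) : Fam X (nx X) where
  e i := ((Fintype.equivFin (Ix X)).symm i, 0)
  i0 b := Fintype.equivFin (Ix X) b
  e_i0 b := by simp

variable {X : CompleteIntersection} {F : ℕ → ℕ → List (Ins X) → ℂ}

/-- partial derivative in the direction of a class -/
noncomputable def pd (b : Ix X) (f : RM X) : RM X :=
  MvPowerSeries.pderiv (PowerSeries ℂ) ((E0 X).i0 b) f

/-- structure constants of the quantum product -/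
noncomputable def qc (F : ℕ → ℕ → List (Ins X) → ℂ) (a b c : Ix X) : RM X :=
  ∑ l : Ix X, pairingInv X l c • sr (E0 X) (cor F 0 [(a, 0), (b, 0), (l, 0)])

/-- the adjoint of `S_k` -/
noncomputable def STB (F : ℕ → ℕ → List (Ins X) → ℂ) : ℕ → OB X (nx X)
  | 0 => 1
  | k + 1 => Matrix.of fun c b => ∑ a : Ix X, pairingInv X a c • VB (E0 X) F (a, k) (b, 0)

/-- `S_k` for integers `k` -/
noncomputable def SZ (F : ℕ → ℕ → List (Ins X) → ℂ) (k : ℤ) : OB X (nx X) :=
  if k < 0 then 0 else SB (E0 X) F k.toNat

/-- functions of `μ` -/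
noncomputable def fmu (X : CompleteIntersection) (n : ℕ) (g : ℂ → ℂ) : OB X n :=
  Matrix.diagonal fun b => cb n (g (mu X b))

/-- `[x]^{K-1}_i` at `x = μ + m + 1/2` -/
noncomputable def ee (X : CompleteIntersection) (n : ℕ) (m : ℤ) (K i : ℕ) : OB X n :=
  fmu X n (fun x => esym K i (x + (m : ℂ) + 1 / 2))

/-- **[M1]** -/
theorem qc_comm (hF : IsGW X F) (he : Even X.dim) (a b c : Ix X) : qc F a b c = qc F b a c := by
  sorry

/-- **[M1]** WDVV -/
theorem qc_assoc (hF : IsGW X F) (he : Even X.dim) (i j l m : Ix X) :
    ∑ k, qc F i j k * qc F k l m = ∑ k, qc F j l k * qc F i k m := by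
  sorry

/-- **[M1]** string equation -/
theorem qc_unit (hF : IsGW X F) (he : Even X.dim) (j k : Ix X) :
    qc F (one X) j k = if j = k then 1 else 0 := by
  sorry

/-- the structure constants -/
noncomputable def consts (hF : IsGW X F) (he : Even X.dim) : Consts (Ix X) (one X) (RM X) where
  c := qc F
  comm := qc_comm hF he
  assoc := qc_assoc hF he
  unit := qc_unit hF he

/-- the quantum algebra -/
abbrev AM (hF : IsGW X F) (he : Even X.dim) : Type := QA (consts hF he)

variable (hF : IsGW X F) (he : Even X.dim)

/-- the two notations for the quantum product -/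
theorem CB_eq (x : AM hF he) : CB (E0 X) F x = QA.mat _ x := rfl

/-- derivative along a vector field -/
noncomputable def der (x : AM hF he) (f : RM X) : RM X := ∑ b, x b * pd b f

/-- the flat connection -/
noncomputable def nab (x y : AM hF he) : AM hF he := fun k => der hF he x (y k)

/-- the grading operator -/
noncomputable def dd : AM hF he →ₗ[RM X] AM hF he where
  toFun x := fun k => ((hp X k : ℕ) : RM X) * x k
  map_add' x y := by
    funext k
    change _ * (x k + y k) = _ * x k + _ * y k
    ring
  map_smul' r x := by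
    funext k
    change _ * (r * x k) = r * (_ * x k)
    ring

/-- the Euler field `∑ (1 - p_a) u_a e_a + ν e_h` -/
noncomputable def EM : AM hF he := fun k =>
  (1 - ((hp X k : ℕ) : RM X)) * MvPowerSeries.X ((E0 X).i0 k) +
    if k = hcls X then ((index X : ℤ) : RM X) else 0

/-- covariant derivative of operators -/
noncomputable def nabO (x : AM hF he) (a : OB X (nx X)) : OB X (nx X) := a.map (der hF he x)

/-- the derivative of the genus one potential -/
noncomputable def GG : AM hF he →ₗ[RM X] RM X := GB (E0 X) F

/-- **[M2]** elementary rules -/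
theorem der_add_left (x y : AM hF he) (f : RM X) :
    der hF he (x + y) f = der hF he x f + der hF he y f := by
  sorry

/-- **[M2]** -/
theorem der_smul_left (g : RM X) (x : AM hF he) (f : RM X) :
    der hF he (g • x) f = g * der hF he x f := by
  sorry

/-- **[M2]** -/
theorem der_add (x : AM hF he) (f g : RM X) :
    der hF he x (f + g) = der hF he x f + der hF he x g := by
  sorry

/-- **[M2]** -/
theorem der_mul (x : AM hF he) (f g : RM X) :
    der hF he x (f * g) = der hF he x f * g + f * der hF he x g := by
  sorry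

/-- **[M2]** -/
theorem der_rat (x : AM hF he) (c : ℚ) (f : RM X) :
    der hF he x (c • f) = c • der hF he x f := by
  sorry

/-- **[M2]** -/
theorem nab_add_left (x y z : AM hF he) :
    nab hF he (x + y) z = nab hF he x z + nab hF he y z := by
  sorry

/-- **[M2]** -/
theorem nab_smul_left (g : RM X) (x z : AM hF he) :
    nab hF he (g • x) z = g • nab hF he x z := by
  sorry

/-- **[M2]** -/
theorem nab_add (x y z : AM hF he) : nab hF he x (y + z) = nab hF he x y + nab hF he x z := by
  sorry

/-- **[M2]** -/
theorem nab_smul (x : AM hF he) (g : RM X) (z : AM hF he) :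
    nab hF he x (g • z) = der hF he x g • z + g • nab hF he x z := by
  sorry

/-- **[M2]** -/
theorem nab_one (x : AM hF he) : nab hF he x 1 = 0 := by
  sorry

/-- **[M2]** -/
theorem der_comm (x y : AM hF he) (f : RM X) :
    der hF he x (der hF he y f) - der hF he y (der hF he x f) =
      der hF he (nab hF he x y - nab hF he y x) f := by
  sorry

/-- **[M2]** -/
theorem d_one : dd hF he 1 = 0 := by
  sorry

/-- **[M2]** -/
theorem nab_d (x y : AM hF he) : nab hF he x (dd hF he y) = dd hF he (nab hF he x y) := by
  sorry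

/-- **[M2]** -/
theorem nab_E (x : AM hF he) : nab hF he x (EM hF he) = x - dd hF he x := by
  sorry

/-- **[M3]** -/
theorem c4_symm (x y z : AM hF he) : nab hF he x (y * z) - nab hF he x y * z -
    y * nab hF he x z = nab hF he y (x * z) - nab hF he y x * z - x * nab hF he y z := by
  sorry

/-- **[M3]** -/
theorem c5_symm (w x y z : AM hF he) :
    nab hF he w (nab hF he x (y * z) - nab hF he x y * z - y * nab hF he x z)
      - (nab hF he (nab hF he w x) (y * z) - nab hF he (nab hF he w x) y * z
        - y * nab hF he (nab hF he w x) z)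
      - (nab hF he x (nab hF he w y * z) - nab hF he x (nab hF he w y) * z
        - nab hF he w y * nab hF he x z)
      - (nab hF he x (y * nab hF he w z) - nab hF he x y * nab hF he w z
        - y * nab hF he x (nab hF he w z)) =
    nab hF he x (nab hF he w (y * z) - nab hF he w y * z - y * nab hF he w z)
      - (nab hF he (nab hF he x w) (y * z) - nab hF he (nab hF he x w) y * z
        - y * nab hF he (nab hF he x w) z)
      - (nab hF he w (nab hF he x y * z) - nab hF he w (nab hF he x y) * z
        - nab hF he x y * nab hF he w z)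
      - (nab hF he w (y * nab hF he x z) - nab hF he w y * nab hF he x z
        - y * nab hF he w (nab hF he x z)) := by
  sorry

/-- **[M4]** from the grading equation -/
theorem c4_E (x y : AM hF he) : nab hF he x (EM hF he * y) - nab hF he x (EM hF he) * y -
    EM hF he * nab hF he x y = x * dd hF he y + y * dd hF he x - dd hF he (x * y) := by
  sorry

/-- **[M5]** -/
theorem nabO_add (x : AM hF he) (a b : OB X (nx X)) :
    nabO hF he x (a + b) = nabO hF he x a + nabO hF he x b := by
  sorry

/-- **[M5]** -/
theorem nabO_mul (x : AM hF he) (a b : OB X (nx X)) :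
    nabO hF he x (a * b) = nabO hF he x a * b + a * nabO hF he x b := by
  sorry

/-- **[M5]** -/
theorem nabO_smul (x : AM hF he) (g : RM X) (a : OB X (nx X)) :
    nabO hF he x (g • a) = der hF he x g • a + g • nabO hF he x a := by
  sorry

/-- **[M5]** -/
theorem nabO_mu (x : AM hF he) : nabO hF he x (muB X (nx X)) = 0 := by
  sorry

/-- **[M5]** -/
theorem nabO_U (x : AM hF he) : nabO hF he x (QA.mat _ (EM hF he)) =
    QA.mat _ x + QA.mat _ x * muB X (nx X) - muB X (nx X) * QA.mat _ x := by
  sorry

/-- **[M5]** -/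
theorem c4O_symm (x y : AM hF he) :
    nabO hF he x (QA.mat _ y) - QA.mat _ (nab hF he x y) =
      nabO hF he y (QA.mat _ x) - QA.mat _ (nab hF he y x) := by
  sorry

/-- **[M5]** -/
theorem str_comm (a b : OB X (nx X)) : strB X (nx X) (a * b) = strB X (nx X) (b * a) := by
  sorry

/-- **[M5]** -/
theorem der_str (x : AM hF he) (a : OB X (nx X)) :
    der hF he x (strB X (nx X) a) = strB X (nx X) (nabO hF he x a) := by
  sorry

/-- **[M6]** -/
theorem G_symm (x y : AM hF he) : der hF he x (GG hF he y) - GG hF he (nab hF he x y) =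
    der hF he y (GG hF he x) - GG hF he (nab hF he y x) := by
  sorry

/-- **[M6]** string equation -/
theorem G_one : GG hF he 1 = 0 := by
  sorry

/-- **[M6]** grading and divisor equation -/
theorem G_E : GG hF he (EM hF he) =
    cb (nx X) (-(index X : ℂ) / 24 * (deg X * chernCoeff X (X.dim - 1))) := by
  sorry

/-- **[M6]** -/
theorem der_cb (x : AM hF he) (c : ℂ) : der hF he x (cb (nx X) c) = 0 := by
  sorry

/-- The full small phase space. -/
noncomputable def frob : Frob (RM X) (AM hF he) (OB X (nx X)) where
  der := der hF he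
  der_add_left := der_add_left hF he
  der_smul_left := der_smul_left hF he
  der_add := der_add hF he
  der_mul := der_mul hF he
  der_rat := der_rat hF he
  nab := nab hF he
  nab_add_left := nab_add_left hF he
  nab_smul_left := nab_smul_left hF he
  nab_add := nab_add hF he
  nab_smul := nab_smul hF he
  nab_one := nab_one hF he
  der_comm := der_comm hF he
  d := dd hF he
  d_one := d_one hF he
  nab_d := nab_d hF he
  E := EM hF he
  nab_E := nab_E hF he
  c4_symm := c4_symm hF he
  c4_E := c4_E hF he
  c5_symm := c5_symm hF he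
  C := QA.mat _
  mu := muB X (nx X)
  nabO := nabO hF he
  nabO_add := nabO_add hF he
  nabO_mul := nabO_mul hF he
  nabO_smul := nabO_smul hF he
  nabO_mu := nabO_mu hF he
  nabO_U := nabO_U hF he
  c4O_symm := c4O_symm hF he
  str := strB X (nx X)
  str_comm := str_comm
  der_str := der_str hF he
  rho := (X.dim : ℚ) / 2
  G := GG hF he
  G_symm := G_symm hF he
  G_one := G_one hF he
  der_G_E x := by
    rw [G_E hF he]
    exact der_cb hF he x _

/-- **[M7]** Getzler's relation, by multilinearity from `h1.getzler` -/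
theorem frob_getzler (h1 : IsGenusOneFull F) : (frob hF he).Getzler := by
  sorry

/-- **[M9]** `om_1` is constant and `de_1 = 0` (`G_E` and the formula of Libgober and Wood) -/
theorem frob_om_one (x : AM hF he) : (frob hF he).der x ((frob hF he).om 1) = 0 := by
  sorry

/-- **[M9]** -/
theorem frob_de_one (hX : 3 ≤ X.dim) : (frob hF he).de 1 = 0 := by
  sorry

/-- **[ZB0]** -/
theorem mu_Rcl (X : CompleteIntersection) (n : ℕ) :
    muB X n * RBcl X n = RBcl X n * muB X n + RBcl X n := by
  sorry

/-- **[ZB0]** -/
theorem ee_zero_zero (X : CompleteIntersection) (n : ℕ) (m : ℤ) : ee X n m 0 0 = 1 := by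
  sorry

/-- **[ZB0]** -/
theorem ee_zero_succ (X : CompleteIntersection) (n : ℕ) (m : ℤ) (i : ℕ) :
    ee X n m 0 (i + 1) = 0 := by
  sorry

/-- **[ZB0]** -/
theorem ee_succ_zero (X : CompleteIntersection) (n : ℕ) (m : ℤ) (K : ℕ) : ee X n m (K + 1) 0 =
    (muB X n + kk (RB n) ((m : ℚ) + 1 / 2 + K)) * ee X n m K 0 := by
  sorry

/-- **[ZB0]** -/
theorem ee_succ_succ (X : CompleteIntersection) (n : ℕ) (m : ℤ) (K i : ℕ) :
    ee X n m (K + 1) (i + 1) = ee X n m K i +
      (muB X n + kk (RB n) ((m : ℚ) + 1 / 2 + K)) * ee X n m K (i + 1) := by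
  sorry

/-- **[Z1]** Euler equation for two-point functions: grading and divisor equation -/
theorem W_euler (a b : Ix X) (m n : ℕ) :
    ∑ i, EM hF he i * sr (E0 X) (cor F 0 [(i, 0), (a, m), (b, n)]) =
      (((m + n + 1 : ℕ) : ℂ) + mu X a + mu X b) • VB (E0 X) F (a, m) (b, n) +
      (if m = 0 then 0 else ∑ c, c1 X a c • VB (E0 X) F (c, m - 1) (b, n)) +
      (if n = 0 then 0 else ∑ c, c1 X b c • VB (E0 X) F (a, m) (c, n - 1)) +
      (if m = 0 ∧ n = 0 then cb (nx X) (∑ c, c1 X a c * pairing X c b) else 0) := by
  sorry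

/-- **[Z2]** topological recursion, from `trrB` -/
theorem W_trr (hF : IsGW X F) (he : Even X.dim) (x a b : Ix X) (m n : ℕ) :
    sr (E0 X) (cor F 0 [(x, 0), (a, m), (b, n)]) =
      ∑ i, ∑ j, SB (E0 X) F m i a * SB (E0 X) F n j b *
        sr (E0 X) (cor F 0 [(x, 0), (i, 0), (j, 0)]) := by
  sorry

/-- **[Z3]** unitarity: string equation and topological recursion, then a power series with
constant term one has a two-sided inverse -/
theorem SZ_STB (hF : IsGW X F) (he : Even X.dim) (p : ℕ) :
    ∑ e ∈ antidiagonal p, (-1) ^ e.2 * (SZ F e.1 * STB F e.2) =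
      if p = 0 then 1 else 0 := by
  sorry

/-- **[Z4]** `g_1 = 1`, `g_2 = 0` on the small phase space -/
theorem gB_one (hF : IsGW X F) (he : Even X.dim) :
    gB (E0 X) F 1 = (1 : AM hF he) := by
  sorry

/-- **[Z4]** -/
theorem gB_two : gB (E0 X) F 2 = 0 := by
  sorry

/-- **[Z4]** from `g_zero` -/
theorem calE_eq (hF : IsGW X F) (he : Even X.dim) : calE (E0 X) F = EM hF he := by
  sorry

/-- **[Z4]** from `g_zero` or `CB_U` -/
theorem UB_eq (hF : IsGW X F) (he : Even X.dim) :
    UB (E0 X) F = QA.mat _ (EM hF he) := by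
  sorry

/-- **[Z4]** from `SB_euler` and `calE_eq` -/
theorem SZ_euler (n : ℤ) : QA.mat _ (EM hF he) * SZ F (n - 1) =
    kk (RM X) n * SZ F n + SZ F n * muB X (nx X) -
      muB X (nx X) * SZ F n + SZ F (n - 1) * RBcl X (nx X) := by
  sorry

/-- **[ZF]** the loop term, from `W_euler`, `W_trr` and `conj` at `c = -1` -/
theorem loop_eq (q : ℕ) : ((q : ℕ) : RM X) * loopB (E0 X) F q =
    - strB X (nx X) (QA.mat _ (EM hF he) *
      DD (RM X) (QA.mat _ (EM hF he)) (muB X (nx X)) (-1) (q + 1) 1) := by
  sorry

/-- **[ZH]** the genus-one Virasoro constraint on the small phase space: from `vir_big`,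
`loop_eq`, `loop_cyclic`, `UB_eq`, `gB_one`, `gB_two` -/
theorem vir_small (h1 : IsGenusOneFull F) (k : ℕ) :
    sr (E0 X) (fun d L => virasoro X F (k + 1) 1 d L) = - (frob hF he).de (k + 1) := by
  sorry

end Vale.Agent.P269.G2
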