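import Vale.Agent.P269.G2.Model
import Vale.Agent.P269.G2.H984.Top
import Vale.Agent.P269.G2.H333.Rho

/-!
# From the full small phase space to the top row: leaves
-/

namespace Vale.Agent.P269.G2

open Finset.HasAntidiagonal (antidiagonal)
open Polynomial (aeval)
open Vale.Agent.P269.CI
open Vale.Agent.P269.G1 (RR ser cst lamc Eu lam AA cq)
open Vale.Agent.P269.G2.H333 (ev0)
open Vale.Agent.P269.G2.H984 (RF rhoc dP)

variable {X : CompleteIntersection} {F : ℕ → ℕ → List (Ins X) → ℂ}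

/-- renaming of the variables -/
noncomputable def phi (X : CompleteIntersection) : RM X →+* RF X :=
  ((MvPowerSeries.renameEquiv (PowerSeries ℂ) (Fintype.equivFin (Ix X)).symm).toAlgHom).toRingHom

/-- **[Ya]** -/
theorem phi_pd (b : Ix X) (f : RM X) :
    phi X (pd b f) = MvPowerSeries.pderiv (PowerSeries ℂ) b (phi X f) := by
  sorry

/-- **[Ya]** -/
theorem phi_X (b : Ix X) : phi X (MvPowerSeries.X ((E0 X).i0 b)) = MvPowerSeries.X b := by
  sorry

/-- **[Ya]** -/
theorem phi_smul (c : ℂ) (f : RM X) : phi X (c • f) = c • phi X f := by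
  sorry

/-- **[Ya]** -/
theorem phi_inj (f : RM X) (h : phi X f = 0) : f = 0 := by
  sorry

/-- **[Yb]** restriction of a function given by its coefficients -/
theorem ev0_phi_sr (A : ℕ → List (Ins X) → ℂ) (hA : SymF (E0 X) A) :
    ev0 (phi X (sr (E0 X) A)) = ser A := by
  sorry

/-- **[Yb]** the derivatives at the origin -/
theorem origin_sr (A : ℕ → List (Ins X) → ℂ) (hA : SymF (E0 X) A) (w : List X.Prim) :
    MvPowerSeries.constantCoeff (dP w (phi X (sr (E0 X) A))) =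
      PowerSeries.mk fun d => A d (w.map fun v => (Sum.inr v, 0)) := by
  sorry

/-- **[Yb]** from `coeff_zero_of_dl` -/
theorem list_zero (A : ℕ → List (Ins X) → ℂ) (hA : SymF (E0 X) A) (N0 : ℕ)
    (h : ∀ w : List X.Prim, w.length ≤ N0 → ev0 (dP w (phi X (sr (E0 X) A))) = 0)
    (d : ℕ) (L : List (Ix X)) (hL : (L.countP fun a => a.isRight) ≤ N0) :
    A d (L.map fun a => (a, 0)) = 0 := by
  sorry

/-- **[Yc]** -/
theorem ev0_qc_inl (hF : IsGW X F) (he : Even X.dim) (i j k : Fin (X.dim + 1)) :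
    ev0 (phi X (qc F (Sum.inl i) (Sum.inl j) (Sum.inl k))) = G1.qc F i j k := by
  sorry

/-- **[Yc]** -/
theorem ev0_qc_inr (hF : IsGW X F) (he : Even X.dim) (h1 : IsGenusOne F)
    (i j : Fin (X.dim + 1)) (b : X.Prim) :
    ev0 (phi X (qc F (Sum.inl i) (Sum.inl j) (Sum.inr b))) = 0 := by
  sorry

/-- **[Yc]** -/
theorem ev0_qc_mix (hF : IsGW X F) (he : Even X.dim) (h1 : IsGenusOne F)
    (i j : Fin (X.dim + 1)) (b : X.Prim) :
    ev0 (phi X (qc F (Sum.inl i) (Sum.inr b) (Sum.inl j))) = 0 := by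
  sorry

/-- **[Yc]** -/
theorem ev0_qc_two (hF : IsGW X F) (he : Even X.dim) (h1 : IsGenusOne F)
    (i : Fin (X.dim + 1)) (u b : X.Prim) :
    ev0 (phi X (qc F (Sum.inl i) (Sum.inr u) (Sum.inr b))) =
      if u = b then lamc h1 i else 0 := by
  sorry

/-- **[Yc]** -/
theorem ev0_pd_qc (hF : IsGW X F) (he : Even X.dim) (h1 : IsGenusOne F)
    (v : X.Prim) (i j : Fin (X.dim + 1)) (b : X.Prim) :
    ev0 (MvPowerSeries.pderiv (PowerSeries ℂ) (Sum.inr v)
      (phi X (qc F (Sum.inl i) (Sum.inl j) (Sum.inr b)))) =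
      if v = b then MvPowerSeries.pderiv (PowerSeries ℂ) j (lamc h1 i) else 0 := by
  sorry

/-- **[Yd]** -/
theorem ev0_EM_inl (hF : IsGW X F) (he : Even X.dim) (h1 : IsGenusOne F)
    (i : Fin (X.dim + 1)) : ev0 (phi X (EM hF he (Sum.inl i))) = Eu hF h1 i := by
  sorry

/-- **[Yd]** -/
theorem ev0_EM_inr (hF : IsGW X F) (he : Even X.dim) (b : X.Prim) :
    ev0 (phi X (EM hF he (Sum.inr b))) = 0 := by
  sorry

/-- **[Yd]** -/
theorem ev0_pd_EM_inl (hF : IsGW X F) (he : Even X.dim) (v : X.Prim) (i : Fin (X.dim + 1)) :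
    ev0 (MvPowerSeries.pderiv (PowerSeries ℂ) (Sum.inr v) (phi X (EM hF he (Sum.inl i)))) = 0 := by
  sorry

/-- **[Yd]** -/
theorem ev0_pd_EM_inr (hF : IsGW X F) (he : Even X.dim) (v b : X.Prim) :
    ev0 (MvPowerSeries.pderiv (PowerSeries ℂ) (Sum.inr v) (phi X (EM hF he (Sum.inr b)))) =
      if v = b then 1 - ((X.hodgeP v : ℕ) : RR X) else 0 := by
  sorry

/-- **[Ye]** from `H333.ev0_pow_inl` -/
theorem ev0_pow_inl (hF : IsGW X F) (he : Even X.dim) (h1 : IsGenusOne F) (m : ℕ)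
    (i : Fin (X.dim + 1)) : ev0 (phi X ((EM hF he ^ m : AM hF he) (Sum.inl i))) =
      (Eu hF h1 ^ m : AA hF h1) i := by
  sorry

/-- **[Ye]** from `H333.pow_inr` -/
theorem ev0_pow_inr (hF : IsGW X F) (he : Even X.dim) (h1 : IsGenusOne F) (m : ℕ)
    (b : X.Prim) : ev0 (phi X ((EM hF he ^ m : AM hF he) (Sum.inr b))) = 0 := by
  sorry

/-- **[Ye]** from `H333.ev0_pow_inr` -/
theorem ev0_pd_pow (hF : IsGW X F) (he : Even X.dim) (h1 : IsGenusOne F) (m : ℕ)
    (v b : X.Prim) : ev0 (MvPowerSeries.pderiv (PowerSeries ℂ) (Sum.inr v)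
      (phi X ((EM hF he ^ m : AM hF he) (Sum.inr b)))) =
      if v = b then rhoc hF h1 m v else 0 := by
  sorry

/-- the characteristic polynomial of the multiplication by the Euler field -/
noncomputable def chi (hF : IsGW X F) (he : Even X.dim) : Polynomial (RM X) :=
  (QA.mat _ (EM hF he)).charpoly

/-- **[Yf]** -/
theorem aeval_chi (hF : IsGW X F) (he : Even X.dim) : aeval (EM hF he) (chi hF he) = 0 := by
  sorry

/-- **[Yg]** from `H980.matrix_skew`: the pairing is symmetric and invariant, `μ` is skew -/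
theorem chi_psi (hF : IsGW X F) (he : Even X.dim) :
    (chi hF he).sum (fun n c => c • (frob hF he).psi n) = 0 := by
  sorry

/-- **[Yh]** from `chi_psi`: apply to the unit -/
theorem chi_phi (hF : IsGW X F) (he : Even X.dim) :
    (chi hF he).sum (fun n c => c • (frob hF he).phi n) = 0 := by
  sorry

/-- **[Yi]** from `om_poly` -/
theorem chi_de (hF : IsGW X F) (he : Even X.dim) (j : ℕ) :
    (chi hF he).sum (fun n c => c * (frob hF he).de (n + j)) = 0 := by
  sorry

/-- **[Yj]** -/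
theorem chi_deriv (hF : IsGW X F) (he : Even X.dim) (a : ℕ → RM X)
    (ha0 : ∀ j, (chi hF he).sum (fun n c => c * a (n + j)) = 0)
    (ha : ∀ n, 2 * (frob hF he).de (n + 1) = ((n : RM X) + 1) * a n) (j : ℕ) :
    (chi hF he).sum (fun n c => c * ((n : RM X) * a (n - 1 + j))) = 0 := by
  sorry

/-- **[Yk]** from `H980.charpoly_block`, `H980.charpoly_eq`, `pow_basis` -/
theorem chi_ev0 (hF : IsGW X F) (he : Even X.dim) (h1 : IsGenusOne F) (hi : index X ≠ 0)
    (P : Polynomial (RR X)) (hm : P.Monic) (hd : P.natDegree = X.dim + 1)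
    (hP : aeval (Eu hF h1) P = 0) (v : X.Prim) :
    ((chi hF he).map (phi X)).map ev0 = P * (Polynomial.X -
      Polynomial.C ((lam hF h1 (Eu hF h1)) v)) ^ Fintype.card X.Prim := by
  sorry

/-- **[Yl]** dimension count (the sum of the two gradings) -/
theorem vir_weight (hF : IsGW X F) (p d : ℕ) (w : List X.Prim)
    (h : 2 * (index X * d) ≠ 2 * (p : ℤ) + w.length * ((X.dim : ℤ) - 2)) :
    virasoro X F (p + 1) 1 d (w.map fun v => (Sum.inr v, 0)) = 0 := by
  sorry

/-- **[Ym]** from `mono4` -/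
theorem vir_odd (h1 : IsGenusOneFull F) (h3 : 3 ≤ excess X) (p d : ℕ) (w : List X.Prim)
    (hw : w.length % 2 = 1) :
    virasoro X F (p + 1) 1 d (w.map fun v => (Sum.inr v, 0)) = 0 := by
  sorry

/-- **[Yn]** the full small phase space, at most `N0` primitive insertions: from `top_le`,
`closure`, `key`, `vir_small` -/
theorem virasoro_small_le (hF : IsGW X F) (he : Even X.dim) (h1 : IsGenusOneFull F)
    (hX : 3 ≤ X.dim) (hm : 2 ≤ excess X) (hi : 2 ≤ index X)
    (h0 : ∀ k d (L : List (Fin (X.dim + 1))), virasoro X F (k + 1) 1 d (L.map (hpow X)) = 0)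
    (N0 : ℕ) (hN : ∀ N p d : ℕ, 1 ≤ N → N ≤ N0 → 1 ≤ p → p + 1 ≤ excess X →
      (3 ≤ excess X → N % 2 = 0) → 2 * (index X * d) ≠ 2 * (p : ℤ) + N * ((X.dim : ℤ) - 2))
    (k d : ℕ) (L : List (Ix X)) (hL : (L.countP fun a => a.isRight) ≤ N0) :
    virasoro X F (k + 1) 1 d (L.map fun a => (a, 0)) = 0 := by
  sorry

/-- **[Yo]** descendants -/
theorem virasoro_le (hF : IsGW X F) (he : Even X.dim) (h1 : IsGenusOneFull F)
    (hX : 3 ≤ X.dim) (hm : 2 ≤ excess X) (hi : 2 ≤ index X)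
    (h0 : ∀ k d (L : List (Fin (X.dim + 1))), virasoro X F (k + 1) 1 d (L.map (hpow X)) = 0)
    (N0 : ℕ) (hN : ∀ N p d : ℕ, 1 ≤ N → N ≤ N0 → 1 ≤ p → p + 1 ≤ excess X →
      (3 ≤ excess X → N % 2 = 0) → 2 * (index X * d) ≠ 2 * (p : ℤ) + N * ((X.dim : ℤ) - 2))
    (K d : ℕ) (L : List (Ins X)) (hL : (L.countP fun x => x.1.isRight) ≤ N0) :
    virasoro X F K 1 d L = 0 := by
  cases K with
  | zero => exact H597.virasoro_zero hF 1 d L
  | succ k =>
    have h := virasoro_small_le hF he h1 hX hm hi h0 N0 hN k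
    exact vir_descend hF he h1.trr1 (h1.mono1 0) k N0 h d L hL

/-- **[Yp]** excess three: all genus-one constraints, arbitrary insertions -/
theorem virasoro_three (hF : IsGW X F) (he : Even X.dim) (h1 : IsGenusOneFull F)
    (hX : 6 ≤ X.dim) (hm : excess X = 3) (hidx : index X = (X.dim : ℤ) + 1 - excess X)
    (h0 : ∀ k d (L : List (Fin (X.dim + 1))), virasoro X F (k + 1) 1 d (L.map (hpow X)) = 0)
    (K d : ℕ) (L : List (Ins X)) : virasoro X F K 1 d L = 0 := by
  have hdim : (6 : ℤ) ≤ X.dim := by exact_mod_cast hX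
  have hi : index X = (X.dim : ℤ) - 2 := by rw [hidx, hm]; push_cast; ring
  refine virasoro_le hF he h1 (by omega) (by omega) (by omega) h0
    (L.countP fun x => x.1.isRight) ?_ K d L le_rfl
  intro N p d hN _ hp hp2 hpar h
  have hNe : N % 2 = 0 := hpar (by omega)
  obtain ⟨N', rfl⟩ : ∃ N', N = 2 * N' := ⟨N / 2, by omega⟩
  rw [hi] at h
  push_cast at h
  have h2 : ((X.dim : ℤ) - 2) * ((d : ℤ) - N') = p := by linarith
  have hp' : (1 : ℤ) ≤ p ∧ (p : ℤ) ≤ 2 := ⟨by exact_mod_cast hp, by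
    have : p ≤ 2 := by omega
    exact_mod_cast this⟩
  rcases le_or_gt ((d : ℤ) - N') 0 with h3 | h3
  · nlinarith
  · nlinarith

end Vale.Agent.P269.G2
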